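import Vale.Agent.P159.Main

namespace Vale.Agent.Results.P159.PowerUpperBound

open Vale.Agent.P159

/-- Free-boundary XY correlations on squares decay at least with the exponent
`1 / (2 π b rho(4 b))`, up to `ε`, uniformly in the square. -/
theorem result (b : ℝ) (hb : 0 < b) :
    0 < rho (4 * b) ∧ rho (4 * b) < 1 ∧ ∀ ε > (0 : ℝ), ∃ K : ℝ, ∀ R r : ℕ, 1 ≤ r →
      ∀ x y : {v // v ∈ box R}, (y : ℤ × ℤ) = (x : ℤ × ℤ) + ((r : ℤ), 0) →
        |corr R b x y| ≤ K * (r : ℝ) ^ (-(1 / (2 * Real.pi * b * rho (4 * b)) - ε)) :=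
  xy_upper b hb

end Vale.Agent.Results.P159.PowerUpperBound
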